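import Vale.Agent.P218A2.Seq
import Vale.Agent.P218ST.Hub
import Vale.Agent.P218WD.Cut
import Vale.Agent.P218TP.G1

/-! # Solutions on the cylindrical ends: jets, equation, reality and bounds -/

open Set Filter Topology Metric

set_option linter.unusedSectionVars false

namespace Vale.Agent.P218A2

open Vale.Agent.P218GE Vale.Agent.P218VA Vale.Agent.P218HB Vale.Agent.P218GA Vale.Agent.P218XI
open Vale.Agent.P218CO (J2 T3 cj cj_congr cj_clm cj_prod pd_clm pd_pd_clm)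
open Vale.Agent.P218EN (WA Af xf ef wEq_iff)
open Vale.Agent.P218ST (CylSol)

section jb
variable {f g : ℝ × ℝ → ℂ} {p : ℝ × ℝ} {l K : ℝ}

lemma abs_mul_re_le {z : ℂ} {a : ℝ} (h : ‖(a : ℂ) • z‖ ≤ K) : |a * z.re| ≤ K := by
  rw [← Complex.re_ofReal_mul]
  exact (Complex.abs_re_le_norm _).trans h

lemma jb_re (hf : ContDiffAt ℝ 2 f p) (h : ‖nj l (cj (1, 0) (0, 1) f p)‖ ≤ K) :
    JB (fun y => (f y).re) p l K := by
  have h1 := fun v => pd_clm Complex.reCLM (hf.differentiableAt (by simp)) v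
  have h2 := fun v v' => pd_pd_clm Complex.reCLM hf v v'
  simp only [Complex.reCLM_apply] at h1 h2
  simp only [nj, cj, Prod.norm_mk, max_le_iff] at h
  obtain ⟨⟨a0, a1, a2⟩, a3, a4, a5⟩ := h
  refine ⟨Complex.reCLM.contDiff.contDiffAt.comp p hf, (Complex.abs_re_le_norm _).trans a0, ?_, ?_,
    ?_, ?_, ?_⟩ <;> simp only [dw, dth, h1, h2]
  · exact abs_mul_re_le a1
  · exact (Complex.abs_re_le_norm _).trans a2
  · exact abs_mul_re_le (by rwa [Complex.ofReal_pow])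
  · rw [← pd_comm hf]; exact abs_mul_re_le a4
  · exact (Complex.abs_re_le_norm _).trans a5

lemma jb_congr {u v : ℝ × ℝ → ℝ} (h : JB u p l K) (e : v =ᶠ[𝓝 p] u) : JB v p l K := by
  refine ⟨h.cd.congr_of_eventuallyEq e, e.self_of_nhds ▸ h.b0, ?_, ?_, ?_, ?_, ?_⟩
  · rw [dw, pd_congr e]; exact h.bw
  · rw [dth, pd_congr e]; exact h.bt
  · rw [dw, dw, pd_congr (pd_congr' e _)]; exact h.bww
  · rw [dw, dth, pd_congr (pd_congr' e _)]; exact h.bwt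
  · rw [dth, dth, pd_congr (pd_congr' e _)]; exact h.btt

lemma cj_sub (hf : ContDiffAt ℝ 2 f p) (hg : ContDiffAt ℝ 2 g p) :
    cj ((1, 0) : ℝ × ℝ) (0, 1) (fun y => f y - g y) p = cj (1, 0) (0, 1) f p - cj (1, 0) (0, 1) g p := by
  have := cj_clm (d1 := ((1, 0) : ℝ × ℝ)) (d2 := (0, 1))
    (ContinuousLinearMap.fst ℝ ℂ ℂ - ContinuousLinearMap.snd ℝ ℂ ℂ) (hf.prodMk hg)
  rw [cj_prod hf hg] at this
  exact this

lemma nj_sub (l : ℝ) (j k : J2 ℂ) : nj l (j - k) = nj l j - nj l k := map_sub (n2 ℂ l) j k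

end jb

lemma norm_sqrt_le {z : ℂ} {a : ℝ} (ha : 0 ≤ a) (h : ‖z‖ ≤ a ^ 2) : ‖Complex.sqrt z‖ ≤ a := by
  refine le_of_sq_le_sq ?_ ha
  rwa [← norm_pow, P218IN.sqrt_sq']

variable {a0 s W : ℝ} {α : ℂ} {J : Fin 6 → WA} {p : ℝ × ℝ} (h : CylSol a0 s W α J)
include h

lemma cyl_big : 10 ^ 30 ≤ s := h.rg.big.trans h.rg.le0

lemma cyl_re {w : ℝ} (hw : w ∈ Icc s W) : 0 < (1 - α * w).re := P218WD.re_of_base h.rg.base hw

lemma cyl_ev (n : Fin 6) {w : ℝ} (hw : w ∈ Icc s W) (θ : ℝ) : ‖(J n).ev w θ‖ ≤ 1 / 1000 :=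
  (P218WD.ev_le_base h.rg.base (h.cls n) hw θ).trans (P218WD.ed_le h.rg.base hw)

lemma cyl_jet : Jet2 (Icc s W) (U0 α J) (U1 α J) (U2 α J) (U11 α J) (U12 α J) (U22 α J) :=
  jet2_U h.rg.base.pos (fun _ => cyl_re h) h.sol.jet

lemma cyl_cd (hp : p.1 ∈ Ioo s W) : ContDiffAt ℝ 2 (U0 α J) p :=
  P218CN.jet2_contDiffAt (cyl_jet h) (by rwa [interior_Icc])

lemma cyl_cj (hp : p.1 ∈ Ioo s W) : cj (1, 0) (0, 1) (U0 α J) p =
    ((U0 α J p, U1 α J p, U2 α J p), (U11 α J p, U12 α J p, U22 α J p)) := by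
  obtain ⟨e1, e2, e3, e4, e5⟩ := (cyl_jet h).eq_pd (by rwa [interior_Icc]) (cyl_cd h hp)
    (Eventually.of_forall fun _ => rfl)
  rw [cj, e1, e2, e3, e4, e5]

lemma cyl_lam (hp : p.1 ∈ Icc s W) : 1 + ef 0 p.1 * U0 α J p ^ 2 ≠ 0 := by
  rw [lam_U0]
  intro e
  have h1 := (h.rg.base.he _ hp).trans ((P218WD.es_le h.rg.base hp).trans
    (P218WD.ed_le h.rg.base hp))
  have h2 : ‖1 + (J 0).ev p.1 p.2‖ ≤ 2 :=
    (norm_add_le _ _).trans (by rw [norm_one]; linarith [cyl_ev h 0 hp p.2])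
  have h3 : ‖ef α p.1 * (1 + (J 0).ev p.1 p.2) ^ 2‖ ≤ 1 / 1000 * 2 ^ 2 :=
    norm_mul_le_of_le h1 (by rw [norm_pow]; gcongr)
  rw [eq_neg_of_add_eq_zero_right e] at h3
  norm_num at h3

lemma cyl_ppf {F : Frame} (hF : IsCyl F) (hp : p.1 ∈ Ioo s W) :
    PPF (1, 0) (0, 1) (fun q : ℝ × ℝ => F.Z q.1 q.2 (U0 α J q)) p = 0 := by
  have hp' := Ioo_subset_Icc_self hp
  obtain ⟨e1, e2, e3, e4, e5⟩ := (cyl_jet h).eq_pd (by rwa [interior_Icc]) (cyl_cd h hp)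
    (Eventually.of_forall fun _ => rfl)
  rw [hF.PPF_Z (cyl_cd h hp) (h.rg.base.pos.trans hp.1) (cyl_lam h hp'), e1, e2, e3, e4, e5,
    pE_U h.rg.base.pos (fun _ => cyl_re h) J hp', wEq_iff.1 h.sol.eq _ hp', WA.ev_zero]
  simp

lemma cyl_prof (hα : α.im = 0) {w : ℝ} (hw : w ∈ Icc s W) :
    prof α w = (√(1 - α * w).re : ℝ) :=
  Complex.sqrt_of_nonneg (Complex.nonneg_iff.2 ⟨(cyl_re h hw).le, by simp [hα]⟩)

lemma cyl_real (hα : α.im = 0) (hp : p.1 ∈ Icc s W) (hJ : ((J 0).ev p.1 p.2).im = 0) :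
    ((U0 α J p).re : ℂ) = U0 α J p := by
  refine Complex.ext rfl ?_
  rw [U0, cyl_prof h hα hp]
  simp [hJ]

/-- the profile parameter is small if the canonical parameter is small -/
lemma cyl_alpha {K C k : ℝ} {a : ℂ} (hb : P218CH.Big K W) (hK : 1 ≤ K) (hk : 0 < k)
    (ha : ‖a‖ * W ≤ 1 / 2) (ht : ‖a - P218TP.GG W α‖ ≤ C * W ^ (-k) / W ^ 2)
    (hW : 4 * (|C| + 100) ≤ W) : ‖α‖ * W ≤ 1 := by
  have W0 := hb.pos
  have a1 : 1 ≤ a0 := le_trans (by norm_num) h.rg.big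
  have h1 := P218TP.GG_sub_g0 W0 (le_trans (by norm_num) h.rg.big) h.dom
  have h2 : C * W ^ (-k) ≤ |C| := (le_abs_self _).trans (by
    rw [abs_mul, abs_of_nonneg (Real.rpow_nonneg W0.le _)]
    exact mul_le_of_le_one_right (abs_nonneg _)
      (Real.rpow_le_one_of_one_le_of_nonpos (by linarith [hb.1]) (by linarith)))
  have h3 : ‖P218CH.g0 W α‖ ≤ ‖a‖ + (|C| + 100) / W ^ 2 := by
    have h4 : C * W ^ (-k) / W ^ 2 ≤ |C| / W ^ 2 := by gcongr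
    have h5 := norm_sub_le_norm_sub_add_norm_sub a (P218TP.GG W α) (P218CH.g0 W α)
    rw [add_div]
    linarith [norm_le_norm_add_norm_sub a (P218CH.g0 W α)]
  have h6 : (|C| + 100) / W ^ 2 * W ≤ 1 / 4 := by
    rw [pow_two, ← div_div, div_mul_cancel₀ _ W0.ne', div_le_iff₀ W0]
    linarith
  have h7 : ‖α‖ ≤ ‖P218CH.g0 W α‖ * (9 / 8) := by
    conv_lhs => rw [← div_mul_cancel₀ α (hb.den_ne hK a1 h.dom)]
    exact norm_mul_le_of_le le_rfl (hb.den_le hK a1 h.dom)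
  nlinarith [mul_le_mul_of_nonneg_right h3 W0.le, mul_le_mul_of_nonneg_right h7 W0.le]

lemma cyl_bounds (hα : ‖α‖ * W ≤ 1) (h1 : s < p.1) (h2 : p.1 ≤ W / 2) :
    ‖nj √p.1 (cj (1, 0) (0, 1) (U0 α J) p)‖ ≤ 26 ∧ ‖(p.1 : ℂ) • pd (U0 α J) (1, 0) p‖ ≤ 26 := by
  have w1 : 1 ≤ p.1 := by linarith [cyl_big h]
  have w0 : 0 < p.1 := by linarith
  have hp : p.1 ∈ Ioo s W := ⟨h1, by linarith⟩
  have hp' := Ioo_subset_Icc_self hp
  have e := cyl_cj h hp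
  have k0 : ‖α * p.1‖ ≤ 1 / 2 := by
    rw [norm_mul, Complex.norm_real, Real.norm_of_nonneg w0.le]
    nlinarith [mul_le_mul_of_nonneg_left h2 (norm_nonneg α)]
  have k1 : ‖prof α p.1‖ ≤ 2 := norm_sqrt_le zero_le_two
    ((norm_sub_le _ _).trans (by rw [norm_one]; linarith))
  have k2 : ‖Af α p.1‖ ≤ p.1⁻¹ := by
    have : 1 / 2 ≤ ‖1 - α * p.1‖ := by
      linarith [norm_sub_norm_le 1 (α * p.1), norm_one (α := ℂ)]
    rw [(h.rg.pt hp').norm_Af]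
    exact inv_anti₀ w0 (by nlinarith)
  have k3 : ‖Af α p.1 - xf p.1‖ ≤ p.1⁻¹ + p.1⁻¹ := norm_sub_le_of_le k2 (by
    rw [xf, norm_inv, norm_mul, Complex.norm_real, Real.norm_of_nonneg w0.le, Complex.norm_ofNat]
    exact inv_anti₀ w0 (by linarith))
  have k4 : ∀ n, ‖(J n).ev p.1 p.2‖ ≤ 1 := fun n => (cyl_ev h n hp' _).trans (by norm_num)
  have k5 : ‖1 + (J 0).ev p.1 p.2‖ ≤ 1 + 1 := norm_add_le_of_le norm_one.le (k4 0)
  have r1 : 1 ≤ √p.1 := Real.one_le_sqrt.2 w1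
  have r2 := Real.mul_self_sqrt w0.le
  have k6 : ‖Complex.sqrt (Af α p.1)‖ ≤ (√p.1)⁻¹ := norm_sqrt_le (by positivity) (by
    rwa [inv_pow, Real.sq_sqrt w0.le])
  have i0 : 0 < p.1⁻¹ := by positivity
  have i1 : p.1⁻¹ ≤ 1 := inv_le_one_of_one_le₀ w1
  have i2 : p.1 * p.1⁻¹ = 1 := mul_inv_cancel₀ w0.ne'
  have i3 : √p.1 * (√p.1)⁻¹ = 1 := mul_inv_cancel₀ (by positivity)
  have i4 : √p.1 ≤ p.1 := by nlinarith
  have i5 : √p.1 * p.1⁻¹ ≤ 1 := by nlinarith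
  have u0 : ‖U0 α J p‖ ≤ _ := norm_mul_le_of_le k1 k5
  have u1 : ‖U1 α J p‖ ≤ _ := norm_mul_le_of_le k1
    (norm_sub_le_of_le (norm_mul_le_of_le k2 (k4 3)) (norm_mul_le_of_le k3 k5))
  have u2 : ‖U2 α J p‖ ≤ _ := norm_mul_le_of_le k1 (k4 1)
  have u11 : ‖U11 α J p‖ ≤ _ := norm_mul_le_of_le k1 (norm_sub_le_of_le
    (norm_sub_le_of_le (norm_mul_le_of_le k2 (k4 4)) (norm_mul_le_of_le
      (norm_mul_le_of_le (Complex.norm_ofNat 2).le k3) (norm_mul_le_of_le k2 (k4 3))))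
    (norm_mul_le_of_le ((norm_pow _ 2).trans_le (pow_le_pow_left₀ (norm_nonneg _) k3 2)) k5))
  have u12 : ‖U12 α J p‖ ≤ _ := norm_mul_le_of_le k1
    (norm_sub_le_of_le (norm_mul_le_of_le k6 (k4 5)) (norm_mul_le_of_le k3 (k4 1)))
  have u22 : ‖U22 α J p‖ ≤ _ := norm_mul_le_of_le k1 (k4 2)
  have v1 : p.1 * ‖U1 α J p‖ ≤ 26 := by nlinarith [mul_le_mul_of_nonneg_left u1 w0.le]
  have e1 : pd (U0 α J) (1, 0) p = U1 α J p := congrArg (fun j => j.1.2.1) e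
  rw [e, e1]
  simp only [nj, Prod.norm_mk, max_le_iff, norm_smul, norm_pow, Complex.norm_real,
    Real.norm_of_nonneg (Real.sqrt_nonneg _), Real.norm_of_nonneg w0.le, Real.sq_sqrt w0.le]
  refine ⟨⟨⟨by linarith, ?_, by linarith⟩, ?_, ?_, by linarith⟩, v1⟩
  · exact (mul_le_mul_of_nonneg_right i4 (norm_nonneg _)).trans v1
  · have : ‖U11 α J p‖ ≤ 26 * p.1⁻¹ := by nlinarith
    nlinarith [mul_le_mul_of_nonneg_left this w0.le]
  · nlinarith [mul_le_mul_of_nonneg_left u12 (Real.sqrt_nonneg p.1)]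

lemma cyl_size (hα : ‖α‖ * W ≤ 1) (hi : α.im = 0) (h1 : s < p.1)
    (h2 : p.1 ≤ W / 2) : 1 / 2 ≤ (U0 α J p).re ∧ (U0 α J p).re ≤ 2 := by
  have w0 : 0 < p.1 := by linarith [cyl_big h]
  have hp : p.1 ∈ Icc s W := ⟨h1.le, by linarith⟩
  have k0 : ‖α * p.1‖ ≤ 1 / 2 := by
    rw [norm_mul, Complex.norm_real, Real.norm_of_nonneg w0.le]
    nlinarith [mul_le_mul_of_nonneg_left h2 (norm_nonneg α)]
  have k1 := abs_le.1 ((Complex.abs_re_le_norm _).trans k0)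
  have k2 := abs_le.1 ((Complex.abs_re_le_norm _).trans (cyl_ev h 0 hp p.2))
  have k3 : 7 / 10 ≤ √(1 - α * p.1).re :=
    Real.le_sqrt_of_sq_le (by rw [Complex.sub_re, Complex.one_re]; linarith [k1.2])
  have k4 : √(1 - α * p.1).re ≤ 5 / 4 :=
    Real.sqrt_le_iff.2 ⟨by norm_num, by rw [Complex.sub_re, Complex.one_re]; linarith [k1.1]⟩
  rw [U0, cyl_prof h hi hp, Complex.re_ofReal_mul, Complex.add_re, Complex.one_re]
  constructor <;> nlinarith [k2.1, k2.2]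

end Vale.Agent.P218A2
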