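import Vale.Agent.P218GE.RF
import Vale.Agent.P218CO.Jet2
import Vale.Agent.P218CN.Fun

/-! # From jets to the classes `D0`, `D2`, `DP` -/

open Set Filter Topology Metric Asymptotics

set_option linter.unusedSectionVars false

namespace Vale.Agent.P218A2

open Vale.Agent.P218GE Vale.Agent.P218VA
open Vale.Agent.P218CO (J2 T3 cj)
open Vale.Agent.P218CN (cop cop_apply)

section lin
variable {G : Type} [NormedAddCommGroup G] [NormedSpace ℝ G]

lemma fderiv_eq_cop (g : ℝ × ℝ → G) (x : ℝ × ℝ) :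
    fderiv ℝ g x = cop (pd g (1, 0) x, pd g (0, 1) x) := by
  ext <;> simp [cop_apply, pd]

/-- the bilinear map with the given Hessian -/
noncomputable def hes (h : T3 G) : ℝ × ℝ →L[ℝ] ℝ × ℝ →L[ℝ] G :=
  cop (cop (h.1, h.2.1), cop (h.2.1, h.2.2))

lemma continuous_hes : Continuous (hes : T3 G → _) := by
  unfold hes
  fun_prop

lemma fderiv2_eq {g : ℝ × ℝ → G} {x : ℝ × ℝ} (hg : ContDiffAt ℝ 2 g x) :
    fderiv ℝ (fderiv ℝ g) x = hes (cj (1, 0) (0, 1) g x).2 := by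
  have h := pd_comm hg (1, 0) (0, 1)
  simp only [pd_pd_eq hg] at h
  ext <;> simp [hes, cj, cop_apply, pd_pd_eq hg, h]

end lin

variable {Q P X F G : Type} [TopologicalSpace Q] [NormedAddCommGroup P] [NormedSpace ℝ P]
  [NormedAddCommGroup X] [NormedSpace ℝ X] [NormedAddCommGroup F] [NormedSpace ℝ F]
  [NormedAddCommGroup G] [NormedSpace ℝ G] {π : Par Q P}

lemma d0_map_cd {f : Q × X → F} {f₀ : X → F} {x₀ : X} {k : F → G}
    (hk : ContDiffAt ℝ 1 k (f₀ x₀)) (hf : D0 π f f₀ x₀) :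
    D0 π (fun z => k (f z)) (fun x => k (f₀ x)) x₀ :=
  D0.comp (k := fun z => k z.2) (D1.of_cd hk) hf

lemma d0_map {f : Q × X → F} {f₀ : X → F} {x₀ : X} (L : F →L[ℝ] G) (hf : D0 π f f₀ x₀) :
    D0 π (fun z => L (f z)) (fun x => L (f₀ x)) x₀ :=
  d0_map_cd L.contDiff.contDiffAt hf

/-- freezing the space variable -/
lemma d0_dp {f : Q × X → F} {f₀ : X → F} {x₀ : X} (hf : D0 π f f₀ x₀) :
    DP π (fun q => f (q, x₀)) (f₀ x₀) := by
  have ht : Tendsto (fun q : Q => (q, x₀)) π.l (π.l ×ˢ 𝓝 x₀) :=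
    tendsto_id.prodMk tendsto_const_nhds
  obtain ⟨L, hL⟩ := hf.lin
  refine ⟨(ht.eventually hf.cont).mono fun q hq => ?_, hf.tendsto.comp ht, L,
    IsLittleO.comp_tendsto hL ht⟩
  exact ContinuousAt.comp (f := fun q : Q => (q, x₀)) hq (continuousAt_id.prodMk continuousAt_const)

lemma dp_congr {c c' : Q → F} {c₀ : F} (h : DP π c c₀) (he : c' =ᶠ[π.l] c) : DP π c' c₀ := by
  obtain ⟨L, hL⟩ := h.lin
  refine ⟨?_, h.tendsto.congr' he.symm, L, IsLittleO.congr' hL ?_ EventuallyEq.rfl⟩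
  · filter_upwards [h.cont, π.op _ he] with q h1 h2 using h1.congr (EventuallyEq.symm h2)
  · filter_upwards [he, π.lim.eventually he] with q h1 h2
    rw [h1, h2]

lemma dp_map {c : Q → F} {c₀ : F} (L : F →L[ℝ] G) (h : DP π c c₀) :
    DP π (fun q => L (c q)) (L c₀) :=
  d0_dp (x₀ := (0 : ℝ)) (d0_map L (D1.param h).toD0)

lemma dp_pi {A : Type} [Fintype A] {c : A → Q → F} {c₀ : A → F} (h : ∀ a, DP π (c a) (c₀ a)) :
    DP π (fun q a => c a q) c₀ := by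
  choose L hL using fun a => (h a).lin
  refine ⟨?_, tendsto_pi_nhds.2 fun a => (h a).tendsto, ContinuousLinearMap.pi L,
    isLittleO_pi.2 hL⟩
  exact (eventually_all.2 fun a => (h a).cont).mono fun q hq => continuousAt_pi.2 hq

/-- the class `D2` in terms of jets -/
theorem d2_of_cj {f : Q × ℝ × ℝ → G} {f₀ : ℝ × ℝ → G} {x₀ : ℝ × ℝ}
    (hcd : ∀ᶠ z in π.l ×ˢ 𝓝 x₀, ContDiffAt ℝ 2 (sec f z.1) z.2) (hcd0 : ContDiffAt ℝ 2 f₀ x₀)
    (h1 : D0 π (fun z => (cj (1, 0) (0, 1) (sec f z.1) z.2).1)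
      (fun x => (cj (1, 0) (0, 1) f₀ x).1) x₀)
    (h2 : Tendsto (fun z : Q × ℝ × ℝ => (cj (1, 0) (0, 1) (sec f z.1) z.2).2) (π.l ×ˢ 𝓝 x₀)
      (𝓝 (cj (1, 0) (0, 1) f₀ x₀).2)) : D2 π f f₀ x₀ := by
  refine ⟨d0_map (ContinuousLinearMap.fst ℝ G (G × G)) h1, hcd, hcd0,
    (d0_map (cop.comp (ContinuousLinearMap.snd ℝ G (G × G))) h1).congr
      (Eventually.of_forall fun z => fderiv_eq_cop _ _)
      (Eventually.of_forall fun z => fderiv_eq_cop _ _),
    hcd.mono fun z hz => hz.fderiv_right (m := 1) (by norm_num),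
    hcd0.fderiv_right (m := 1) (by norm_num), ?_⟩
  rw [fderiv2_eq hcd0]
  refine ((continuous_hes.tendsto _).comp h2).congr' ?_
  exact hcd.mono fun z hz => (fderiv2_eq hz).symm

end Vale.Agent.P218A2
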