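import Vale.Agent.P218A2.Cyl
import Vale.Agent.P218GS.Err

/-! # The real family of the hub, and its equation -/

open Set Filter Topology Metric
open scoped Matrix

set_option linter.unusedSectionVars false

namespace Vale.Agent.P218A2

open Vale.Agent.P218GE Vale.Agent.P218VA Vale.Agent.P218HB Vale.Agent.P218GA Vale.Agent.P218XI
open Vale.Agent.P272.K.LIN
open Vale.Agent.P218CO (cj pd_clm)
open Vale.Agent.P218SQ (Pt ofReal)
open Vale.Agent.P218ST (Hub CoreHF strip)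
open Vale.Agent.P218ND (reV reV_cx reV_apply)
open Vale.Agent.P218LB (lvl tendsto_lvl)

lemma cx_reV {V : C3} (h : ∀ a, (V a).im = 0) : cx (reV V) = V :=
  funext fun a => Complex.ext rfl (by simp [h])

lemma cx_reV_mulVec {R : Matrix (Fin 3) (Fin 3) ℂ} (hR : ∀ a b, (R a b).im = 0) (v : E3) :
    cx (reV (R *ᵥ cx v)) = R *ᵥ cx v :=
  cx_reV fun a => by simp [Matrix.mulVec, dotProduct, hR]

/-- the real linear map with the given entries -/
noncomputable def rotL : (Fin 3 × Fin 3 → ℂ) →L[ℝ] E3 →L[ℝ] E3 :=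
  LinearMap.toContinuousLinearMap
    { toFun := fun a => reV.comp ((mvL (Matrix.of fun i j => a (i, j))).comp cx)
      map_add' := fun a b => by
        ext v i
        simp [mvL_apply, Matrix.mulVec, dotProduct, add_mul, Finset.sum_add_distrib]
      map_smul' := fun c a => by
        ext v i
        simp [mvL_apply, Matrix.mulVec, dotProduct, Finset.mul_sum, mul_assoc] }

lemma rotL_apply (R : Matrix (Fin 3) (Fin 3) ℂ) (v : E3) :
    rotL (fun a => R a.1 a.2) v = reV (R *ᵥ cx v) := rfl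

lemma norm_rotL {R : Matrix (Fin 3) (Fin 3) ℂ} (hR : ∀ a b, (R a b).im = 0) (ho : Rᵀ * R = 1)
    (v : E3) : ‖rotL (fun a => R a.1 a.2) v‖ = ‖v‖ := by
  have h := cx_dot (reV (R *ᵥ cx v)) (reV (R *ᵥ cx v))
  rw [cx_reV_mulVec hR, dot_rot ho, cx_dot, real_inner_self_eq_norm_sq,
    real_inner_self_eq_norm_sq, Complex.ofReal_inj] at h
  exact ((sq_eq_sq₀ (norm_nonneg _) (norm_nonneg _)).1 h).symm

lemma inj_of_jac {T : ℝ × ℝ → E2} {y : ℝ × ℝ} (h : jac (1, 0) (0, 1) T y ≠ 0) :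
    Function.Injective (fderiv ℝ T y) := by
  refine (injective_iff_map_eq_zero _).2 fun v hv => ?_
  rw [fderiv_eq_cop, P218CN.cop_apply] at hv
  have h0 := congrArg (fun u : E2 => u 0) hv
  have h1 := congrArg (fun u : E2 => u 1) hv
  simp only [PiLp.add_apply, PiLp.smul_apply, smul_eq_mul, PiLp.zero_apply] at h0 h1
  refine Prod.ext (mul_left_cancel₀ h ?_) (mul_left_cancel₀ h ?_) <;> simp only [jac, Prod.fst_zero,
    Prod.snd_zero]
  · linear_combination pd T (0, 1) y 1 * h0 - pd T (0, 1) y 0 * h1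
  · linear_combination pd T (1, 0) y 0 * h1 - pd T (1, 0) y 1 * h0

variable {S : Set E3} {w : E3 → ℝ} {δ C : ℝ} {ι κ M : Type} [Fintype ι] [Fintype κ]
  [DecidableEq ι] [TopologicalSpace M] [ChartedSpace E2 M] [T2Space M] [RSm E2 M] [CompactSpace M]
  [MeasurableSpace M] [BorelSpace M] {m : Model S w δ C ι κ M} {τ : Type} [Fintype τ]

lemma not_coreK {x : M} {r : ℝ} (hx : x ∈ m.reg) (h : x ∉ coreK m.φ r) :
    ∃ j p, r < p.1 ∧ x = pt m j p := by
  simp only [coreK, mem_ofPred_eq, not_forall, not_le] at h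
  obtain ⟨j, hj, h⟩ := h
  have h0 : m.φ j x ≠ 0 := fun e => hx j (by rw [← e, (m.φ j).left_inv hj])
  obtain ⟨θ, -, e⟩ := exists_pol h0
  refine ⟨j, (-Real.log ‖m.φ j x‖, θ), ?_, by rw [pt, e, (m.φ j).left_inv hj]⟩
  have := Real.log_lt_log (norm_pos_iff.2 h0) h
  rw [Real.log_exp] at this
  exact lt_neg.1 this

variable (H : Hub m τ)

lemma one_le_s : 1 ≤ H.s := m.one_le.trans (H.lt.le.trans H.le)

lemma locD {c : Cst} {x : M} (hx : x ∈ m.reg) (h : CoreHF m c H.X x) :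
    LocD m (seqPar ((ι → ℝ) × (τ → ℝ))) H.Xr x := by
  obtain ⟨e, he, T, y, hT, hj, hy, rfl, U, hU, gb, hf, h0⟩ := h
  have h1 := m.smooth e he _ hy hx
  refine ⟨fun y' => e.symm (T y'), y, rfl, ((e.continuousAt_symm hy).comp
    hT.continuousAt).eventually (m.isOpen_reg.mem_nhds hx), ?_, ((hf_d2 hf hU).map reV).congr
    EventuallyEq.rfl (mem_of_superset hU fun y' hy' => ?_)⟩
  · rw [fderiv_fun_comp (g := fun z => m.F (e.symm z)) y (h1.1.differentiableAt (by simp))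
      (hT.differentiableAt (by simp))]
    exact h1.2.comp (inj_of_jac hj)
  · exact ((congrArg reV (h0 y' hy')).trans (reV_cx _)).symm

lemma ev_alpha : ∀ᶠ q : ℕ × (ι → ℝ) × (τ → ℝ) in atTop ×ˢ 𝓝 0, ∀ i,
    ‖H.α (fun _ => lvl q.1 q.2) (ofReal q.2) i‖ * lvl q.1 q.2 ≤ 1 := by
  filter_upwards [H.c.ev_ok, tendsto_lvl.eventually_ge_atTop (4 * (|H.C0| + 100))] with q h1 h2 i
  exact cyl_alpha (H.cylSol _ _ h1 i) (H.c.big _ (h1.1 i).1) H.c.one_le H.c.k_pos
    (Cst.norm_fst_lvl _ _ i) (H.tip _ _ h1 i) h2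

lemma ev_lt {r : ℝ} {p : ℝ × ℝ} (hp : r < p.1) : ∀ᶠ y : ℝ × ℝ in 𝓝 p, r < y.1 :=
  continuous_fst.continuousAt.eventually (lt_mem_nhds hp)

lemma ev_gt {r : ℝ} {p : ℝ × ℝ} (hp : p.1 < r) : ∀ᶠ y : ℝ × ℝ in 𝓝 p, y.1 < r :=
  continuous_fst.continuousAt.eventually (gt_mem_nhds hp)

lemma re_eq {z : ℂ} (h : z.im = 0) : (z.re : ℂ) = z := Complex.ext rfl (by simp [h])

/-- the real family -/
noncomputable def realFam : RealFam m (seqPar ((ι → ℝ) × (τ → ℝ))) where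
  X := H.Xr
  s := H.s
  W q := lvl q.1 q.2
  A i q := rotL fun a => H.R (fun _ => lvl q.1 q.2) (ofReal q.2) i a.1 a.2
  u i z := (sq (fun W z => U0 (H.α W z i) (H.J W z i)) z).re
  t j z := (sq (fun W z => H.t W z j) z).re
  K := max 26 H.C0
  w0_le := H.lt.le.trans H.le
  W_top := tendsto_lvl
  A_iso := H.c.ev_ok.mono fun q hq i => norm_rotL (H.R_real _ _ hq i) (H.orth _ _ hq i)
  A_D i := by
    have h := dp_map rotL (hb_dp (H.R_hb.pre (T := fun b : Fin 3 × Fin 3 => (i, b))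
      (mapsTo_univ _ _)) (H.R_lp.pre (mapsTo_univ _ _)))
    have e : rotL (fun a => H.Rb 0 i a.1 a.2) = (m.Q i).toContinuousLinearEquiv := by
      ext1 v
      rw [rotL_apply, H.R_zero, ← cx_isometry, reV_cx]
      rfl
    exact e ▸ h
  core x hx h := by
    have h1 : x ∈ coreK m.φ (H.s + 3) := by
      by_contra h2
      obtain ⟨j, p, h3, h4⟩ := not_coreK hx h2
      exact h j p (by linarith) h4
    obtain ⟨c', -, h2⟩ := H.core x h1
    exact locD H hx h2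
  cyl := H.c.ev_ok.mono fun q hq i p h1 h2 => by
    rw [rotL_apply, cx_xiCyl_Z, sq, cyl_real (H.cylSol _ _ hq i) (H.α_real _ _ hq i) ⟨h1.le, h2.le⟩
      (H.J_real _ _ hq i 0 _ ⟨h1.le, h2.le⟩ _), ← H.cyl _ _ hq i p h1 h2]
    rfl
  cone := H.c.ev_ok.mono fun q hq j p h1 => by
    rw [← reV_cx (xiCone ..), cx_xiCone, sq, re_eq (H.t_real _ _ hq j p h1), ← H.cone _ _ hq j p h1]
    rfl
  u_per i q a θ := by simp only [sq, U0, P218CN.ev_periodic]
  t_per j q a θ := by simp only [sq, H.t_per]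
  u_D i p hp := by
    obtain ⟨c', ub, -, hf, h0⟩ := H.u_hf i (p.1 + 1)
    have hU : strip H.s (p.1 + 1) ∈ 𝓝 p := (ev_lt hp).and (ev_gt (lt_add_one _))
    refine ((hf_d2 hf hU).map Complex.reCLM).congr EventuallyEq.rfl
      (mem_of_superset hU fun y hy => ?_)
    exact (congrArg Complex.re (h0 y hy).1).symm
  t_D j p hp := by
    refine ((hf_d2 (hn_hf (H.t_hn j) (one_le_s H)) (ev_lt hp)).map Complex.reCLM).congr
      EventuallyEq.rfl ((ev_lt hp).mono fun y hy => ?_)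
    exact (congrArg Complex.re (H.t_zero j y hy)).symm
  u_bd := by
    filter_upwards [H.c.ev_ok, ev_alpha H] with q hq h0 i p h1 h2
    have hc := H.cylSol _ _ hq i
    have h3 := cyl_bounds hc (h0 i) h1 h2
    have h4 := cyl_size hc (h0 i) (H.α_real _ _ hq i) h1 h2
    have h5 := cyl_cd hc ⟨h1, by linarith [one_le_s H]⟩
    refine ⟨jb_re h5 (h3.1.trans (le_max_left _ _)), h4.1, h4.2, ?_⟩
    have h6 := pd_clm Complex.reCLM (h5.differentiableAt (by simp)) (1, 0)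
    exact (congrArg (fun a => |p.1 * a|) h6).trans_le (abs_mul_re_le (h3.2.trans (le_max_left _ _)))
  t_bd ε hε := by
    filter_upwards [H.c.ev_ok, eventually_all.2 fun j => (H.t_hn j).hb.tendsto hε] with q hq h j p hp
    have h1 := (H.t_hn j).cd _ _ hq p hp
    have h2 := (H.t_hn j).cdb 0 (mem_ball_self H.c.r_pos) p hp
    refine jb_congr (jb_re (h1.sub h2) ?_) ((ev_lt hp).mono fun y hy => ?_)
    · rw [cj_sub h1 h2, nj_sub]
      exact (h j p hp).le
    · simp only [H.t_zero j y hy, sq, Complex.sub_re, Complex.ofReal_re]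
  t_supp := H.c.ev_ok.mono fun q hq j p hp => by
    have h6 := pd_clm Complex.reCLM (((H.t_hn j).cd _ _ hq p hp).differentiableAt (by simp)) (1, 0)
    refine (congrArg (fun a => |p.1 ^ 2 * a|) h6).trans_le (abs_mul_re_le
      (le_trans (le_of_eq ?_) ((H.t_supp _ _ hq j p hp).trans (le_max_right _ _))))
    rw [norm_smul, Complex.norm_real, Real.norm_of_nonneg (sq_nonneg _), dw]

/-- (REAL) -/
theorem exists_realFam : ∃ R : RealFam m (seqPar ((ι → ℝ) × (τ → ℝ))),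
    R.X = H.Xr ∧ R.W = fun q => lvl q.1 q.2 := ⟨realFam H, rfl, rfl⟩

lemma cx_Xr {q : ℕ × (ι → ℝ) × (τ → ℝ)} (hq : H.c.Ok (fun _ => lvl q.1 q.2) (ofReal q.2)) {y : M}
    (hy : y ∈ coreK m.φ (H.s + 2)) :
    (fun z => cx (H.Xr q z)) =ᶠ[𝓝 y] H.X (fun _ => lvl q.1 q.2) (ofReal q.2) := by
  filter_upwards [((isEnds_model m).isOpen_coreO (r := H.s + 3)
    (by linarith [H.lt, H.le])).mem_nhds (coreK_subset_coreO (by linarith) hy)] with z hz
  exact cx_reV (H.X_real _ _ hq z (coreO_subset_coreK hz))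

/-- (EQN) -/
theorem eqn {R : RealFam m (seqPar ((ι → ℝ) × (τ → ℝ)))} (G : Geo R) (hX : R.X = H.Xr)
    (hW : R.W = fun q => lvl q.1 q.2) :
    ∀ᶠ q : ℕ × (ι → ℝ) × (τ → ℝ) in atTop ×ˢ 𝓝 0, ∀ y ∈ R.Ex q,
      (y ∈ coreK m.φ H.sd → ELM (fun z => cx (m.F z)) (fun z => cx (R.X q z)) y (cx (m.nu y))
        = (H.eL (H.lamR q.1 q.2) (m.F y) : ℝ)) ∧
      (y ∉ coreK m.φ H.sd → ∀ V, ELM (fun z => cx (m.F z)) (fun z => cx (R.X q z)) y V = 0) := by
  filter_upwards [H.c.ev_ok, G.elm_of_ppf, (realFam H).cyl, (realFam H).cone,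
    tendsto_lvl.eventually_gt_atTop 0] with q hq he hc hk h0 y hy
  refine ⟨fun h => ?_, fun h V => ?_⟩
  · rw [hX, ELM_congr (cx_Xr H hq (coreO_subset_coreK (coreK_subset_coreO (by linarith [H.le]) h))),
      H.deep _ _ hq y h, H.eL_apply]
    push_cast
    exact Finset.sum_congr rfl fun k _ => by rw [Hub.lamR, re_eq (H.lam_real _ _ hq k)]
  by_cases h1 : y ∈ coreK m.φ (H.s + 2)
  · rw [hX, ELM_congr (cx_Xr H hq h1)]
    exact H.out _ _ hq y (coreO_subset_coreK (coreK_subset_coreO (by linarith) h1)) h V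
  obtain ⟨j, p, h2, rfl⟩ := not_coreK hy.1 h1
  have h3 : H.s < p.1 := by linarith
  refine he j p (by linarith [H.lt, H.le]) hy ?_ V
  rw [hX]
  rcases j with i | j
  · have h4 : p.1 < lvl q.1 q.2 := by
      by_contra h5
      exact hy.2 i p (by rw [hW]; linarith [not_lt.1 h5]) rfl
    rw [← cyl_ppf (H.cylSol _ _ hq i) (isCyl_cylF.rot (H.orth _ _ hq i)) ⟨h3, h4⟩]
    refine PPF_congr ?_
    filter_upwards [ev_lt h3, ev_gt h4] with y a1 a2
    refine (congrArg cx (hc i y a1 a2)).trans ((cx_reV_mulVec (H.R_real _ _ hq i) _).trans ?_)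
    rw [cx_xiCyl_Z, Frame.Z, Frame.Z, Frame.rot_X, ← cyl_real (H.cylSol _ _ hq i)
      (H.α_real _ _ hq i) ⟨a1.le, a2.le⟩ (H.J_real _ _ hq i 0 _ ⟨a1.le, a2.le⟩ _)]
    rfl
  · rw [← H.cone_eq _ _ hq j p h3]
    refine PPF_congr ?_
    filter_upwards [ev_lt h3] with y a1
    rw [← re_eq (H.t_real _ _ hq j y a1), ← cx_xiCone]
    exact congrArg cx (hk j y a1)

end Vale.Agent.P218A2
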