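import Vale.Agent.P218A2.Jet
import Vale.Agent.P218HB.Lin

/-! # Holomorphic families along the real family belong to the classes `D0`, `D2`, `DP` -/

open Set Filter Topology Metric Asymptotics

set_option linter.unusedSectionVars false

namespace Vale.Agent.P218A2

open Vale.Agent.P218GE Vale.Agent.P218VA Vale.Agent.P218HB
open Vale.Agent.P218CO (J2 T3 cj taylor_two contDiffAt_cj)
open Vale.Agent.P218SQ (Pt Adm ofReal)
open Vale.Agent.P218LB (lvl)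

variable {ι τ : Type} [Fintype ι] [Fintype τ] {D G : Type} [NormedAddCommGroup D]
  [NormedSpace ℝ D] [NormedAddCommGroup G] [NormedSpace ℂ G]
  {c : Cst} {U : Set D} {g : (ι → ℝ) → Pt ι τ → D → G} {gb : Pt ι τ → D → G} {y : D}

/-- the real family -/
noncomputable def sq {D G : Type} (g : (ι → ℝ) → Pt ι τ → D → G)
    (z : (ℕ × (ι → ℝ) × (τ → ℝ)) × D) : G :=
  g (fun _ => lvl z.1.1 z.1.2) (ofReal z.1.2) z.2

lemma cont_deriv (h : HB c U g gb) (hU : U ∈ 𝓝 y)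
    (hcb : ∀ z ∈ ball (0 : Pt ι τ) c.r, ContinuousAt (gb z) y) :
    ContinuousAt (fun y' => fderiv ℂ (fun z => gb z y') 0) y := by
  obtain ⟨B, b0, hB⟩ := h.bdb'
  have hr := c.r_pos
  refine continuousAt_clm_apply.2 fun b => ?_
  refine continuousAt_of_locally_uniform_approx_of_continuousAt fun u hu => ?_
  obtain ⟨ε, hε, hεu⟩ := Metric.mem_uniformity_dist.1 hu
  have t1 : Tendsto (fun t : ℝ => t * ‖b‖) (𝓝[>] 0) (𝓝 0) :=
    ((continuous_id.mul continuous_const).tendsto' 0 0 (zero_mul _)).mono_left nhdsWithin_le_nhds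
  have t2 : Tendsto (fun t : ℝ => t * (3 * B * (‖b‖ / c.r) ^ 2)) (𝓝[>] 0) (𝓝 0) :=
    ((continuous_id.mul continuous_const).tendsto' 0 0 (zero_mul _)).mono_left nhdsWithin_le_nhds
  obtain ⟨t, ⟨h1, h2⟩, h3⟩ := (((t1.eventually_lt_const hr).and (t2.eventually_lt_const hε)).and
    self_mem_nhdsWithin).exists
  have t0 : 0 < t := h3
  have hn : ‖(t : ℂ) • b‖ = t * ‖b‖ := by
    rw [norm_smul, Complex.norm_real, Real.norm_of_nonneg t0.le]
  have ht : (t : ℂ) ≠ 0 := by exact_mod_cast t0.ne'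
  refine ⟨U, hU, fun y' => (t : ℂ)⁻¹ • (gb ((t : ℂ) • b) y' - gb 0 y'),
    ((hcb _ (mem_ball_zero_iff.2 (hn ▸ h1))).sub (hcb 0 (mem_ball_self hr))).const_smul _,
    fun y' hy' => hεu ?_⟩
  have k := taylor_two (x := 0) (h := (t : ℂ) • b) (h.holob y' hy') (fun u hu => hB u hu y' hy')
    (hn ▸ h1)
  rw [zero_add, hn, map_smul] at k
  rw [dist_comm, dist_eq_norm, ← inv_smul_smul₀ ht (fderiv ℂ (fun z => gb z y') 0 b), ← smul_sub,
    norm_smul, norm_inv, Complex.norm_real, Real.norm_of_nonneg t0.le, inv_mul_lt_iff₀ t0]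
  refine k.trans_lt ?_
  calc 3 * B * (t * ‖b‖ / c.r) ^ 2 = t * (t * (3 * B * (‖b‖ / c.r) ^ 2)) := by ring
    _ < t * ε := by gcongr

lemma hb_tendsto (h : HB c U g gb) (hU : U ∈ 𝓝 y) (hcb : ContinuousAt (gb 0) y) :
    Tendsto (sq g) ((atTop ×ˢ 𝓝 0) ×ˢ 𝓝 y) (𝓝 (gb 0 y)) := by
  have h1 : Tendsto (fun z => sq g z - gb 0 z.2) ((atTop ×ˢ 𝓝 0) ×ˢ 𝓝 y) (𝓝 0) :=
    NormedAddGroup.tendsto_nhds_zero.2 fun ε hε =>
      ((h.tendsto hε).prod_mk hU).mono fun z hz => hz.1 _ hz.2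
  simpa using h1.add (hcb.tendsto.comp tendsto_snd)

theorem hb_d0 (h : HB c U g gb) (hl : Lp c U g) (hU : U ∈ 𝓝 y)
    (hc : ∀ W z, c.Ok W z → ∀ y' ∈ U, ContinuousAt (g W z) y')
    (hcb : ∀ z ∈ ball (0 : Pt ι τ) c.r, ContinuousAt (gb z) y) :
    D0 (seqPar ((ι → ℝ) × (τ → ℝ))) (sq g) (gb 0) y := by
  have h0 := hcb 0 (mem_ball_self c.r_pos)
  refine ⟨?_, h0, hb_tendsto h hU h0,
    ((fderiv ℂ (fun z => gb z y) 0).restrictScalars ℝ).comp (ofL ι τ), ?_⟩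
  · filter_upwards [((h.cont hl).and c.ev_ok).prod_mk (eventually_mem_nhds_iff.2 hU)] with z hz
    obtain ⟨⟨h1, h2⟩, h3⟩ := hz
    have h4 : Tendsto (fun z' => sq g z' - sq g (z.1, z'.2)) (𝓝 z) (𝓝 0) :=
      NormedAddGroup.tendsto_nhds_zero.2 fun ε hε => by
        filter_upwards [continuous_fst.tendsto z (h1 _ (half_pos hε)),
          continuous_snd.tendsto z h3] with z' a1 a2
        exact (a1 _ a2).trans_lt (half_lt_self hε)
    have h5 : Tendsto (fun z' : (ℕ × (ι → ℝ) × (τ → ℝ)) × D => sq g (z.1, z'.2)) (𝓝 z)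
        (𝓝 (sq g z)) := (hc _ _ h2 _ (mem_of_mem_nhds h3)).tendsto.comp (continuous_snd.tendsto z)
    simpa [ContinuousAt] using h4.add h5
  · refine isLittleO_iff.2 fun ε hε => ?_
    have h1 := (tendsto_iff_norm_sub_tendsto_zero.1 (cont_deriv h hU hcb)).eventually_le_const
      (half_pos hε)
    filter_upwards [(h.lin (half_pos hε)).prod_mk (h1.and hU)] with z hz
    have h2 := ((fderiv ℂ (fun u => gb u z.2) 0 - fderiv ℂ (fun u => gb u y) 0).le_of_opNorm_le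
      hz.2.1 (ofReal z.1.2))
    rw [norm_ofReal] at h2
    refine le_trans (le_of_eq (congrArg norm ?_)) ((norm_add_le_of_le (hz.1 _ hz.2.2) h2).trans
      (le_of_eq ?_))
    · simp [sq, seqPar, ofL_apply]
    · simp only [seqPar, norm_norm]
      ring

theorem hb_dp {A : Type} [Fintype A] {g : (ι → ℝ) → Pt ι τ → A → G} {gb : Pt ι τ → A → G}
    (h : HB c univ g gb) (hl : Lp c univ g) :
    DP (seqPar ((ι → ℝ) × (τ → ℝ))) (fun q => g (fun _ => lvl q.1 q.2) (ofReal q.2)) (gb 0) :=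
  dp_pi fun a => d0_dp (x₀ := (0 : ℝ)) (hb_d0 (U := univ)
    (h.pre (T := fun _ : ℝ => a) (mapsTo_univ _ _)) (hl.pre (mapsTo_univ _ _)) univ_mem
    (fun _ _ _ _ _ => continuousAt_const) fun _ _ => continuousAt_const)

section plane
variable {U : Set (ℝ × ℝ)} {g : (ι → ℝ) → Pt ι τ → ℝ × ℝ → G} {gb : Pt ι τ → ℝ × ℝ → G}
  {y : ℝ × ℝ}

theorem hf_d2 (h : HF c (1, 0) (0, 1) U g gb) (hU : U ∈ 𝓝 y) :
    D2 (seqPar ((ι → ℝ) × (τ → ℝ))) (sq g) (gb 0) y := by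
  have hy := mem_of_mem_nhds hU
  have k : ∀ {f : ℝ × ℝ → G} {x : ℝ × ℝ}, ContDiffAt ℝ 2 f x →
      ContinuousAt (cj ((1, 0) : ℝ × ℝ) (0, 1) f) x := fun hf =>
    (contDiffAt_cj (n := 0) (by simpa using hf)).continuousAt
  have h0 := h.cdb 0 (mem_ball_self c.r_pos) y hy
  refine d2_of_cj ((c.ev_ok.prod_mk hU).mono fun z hz => h.cd _ _ hz.1 _ hz.2) h0
    (hb_d0 (h.hb.clm (ContinuousLinearMap.fst ℂ _ _)) h.lp hU
      (fun W z hz y' hy' => (k (h.cd W z hz y' hy')).fst) fun z hz => (k (h.cdb z hz y hy)).fst) ?_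
  exact (continuous_snd.tendsto _).comp (hb_tendsto h.hb hU (k h0))

/-- the scaling of first order jets -/
noncomputable def n1 (G : Type) [NormedAddCommGroup G] [NormedSpace ℂ G] (l : ℝ) :
    T3 G →L[ℂ] T3 G :=
  (ContinuousLinearMap.id ℂ G).prodMap
    (((l : ℂ) • ContinuousLinearMap.id ℂ G).prodMap (ContinuousLinearMap.id ℂ G))

/-- the scaling of jets -/
noncomputable def n2 (G : Type) [NormedAddCommGroup G] [NormedSpace ℂ G] (l : ℝ) :
    J2 G →L[ℂ] J2 G :=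
  (n1 G l).prodMap (((l : ℂ) ^ 2 • ContinuousLinearMap.id ℂ G).prodMap
    (((l : ℂ) • ContinuousLinearMap.id ℂ G).prodMap (ContinuousLinearMap.id ℂ G)))

lemma smul_le {a : ℂ} (ha : ‖a‖ ≤ 1) (v : G) : ‖a • v‖ ≤ ‖v‖ := by
  rw [norm_smul]
  exact mul_le_of_le_one_left (norm_nonneg _) ha

lemma n1_le {l : ℝ} (hl : |l| ≤ 1) (j : T3 G) : ‖n1 G l j‖ ≤ ‖j‖ :=
  max_le_max le_rfl (max_le_max (smul_le (by simpa using hl) _) le_rfl)

lemma n2_le {l : ℝ} (hl : |l| ≤ 1) (j : J2 G) : ‖n2 G l j‖ ≤ ‖j‖ :=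
  max_le_max (n1_le hl _) (max_le_max (smul_le (by simpa using hl) _)
    (max_le_max (smul_le (by simpa using hl) _) le_rfl))

lemma n2_nj {l : ℝ} (hl : l ≠ 0) (j : J2 G) : n2 G l⁻¹ (nj l j) = j := by
  have h1 : ∀ v : G, ((l⁻¹ : ℝ) : ℂ) • (l : ℂ) • v = v := fun v => by
    rw [Complex.ofReal_inv, inv_smul_smul₀ (by exact_mod_cast hl)]
  have h2 : ∀ v : G, ((l⁻¹ : ℝ) : ℂ) ^ 2 • (l : ℂ) ^ 2 • v = v := fun v => by
    rw [Complex.ofReal_inv, inv_pow, inv_smul_smul₀ (pow_ne_zero 2 (by exact_mod_cast hl))]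
  exact Prod.ext (Prod.ext rfl (Prod.ext (h1 _) rfl)) (Prod.ext (h2 _) (Prod.ext (h1 _) rfl))

lemma n1_nj {l : ℝ} (hl : l ≠ 0) (j : J2 G) : n1 G l⁻¹ (nj l j).1 = j.1 :=
  congrArg Prod.fst (n2_nj hl j)

theorem hn_hf {s : ℝ} (h : HN c s g gb) (hs : 1 ≤ s) :
    HF c (1, 0) (0, 1) {p | s < p.1} g gb := by
  have k1 : ∀ p ∈ {p : ℝ × ℝ | s < p.1}, |p.1⁻¹| ≤ 1 := fun p hp => by
    have : 1 ≤ p.1 := hs.trans (le_of_lt hp)
    rw [abs_of_nonneg (by positivity)]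
    exact inv_le_one_of_one_le₀ this
  have k2 : ∀ p ∈ {p : ℝ × ℝ | s < p.1}, p.1 ≠ 0 := fun p hp =>
    (one_pos.trans_le (hs.trans (le_of_lt hp))).ne'
  refine ⟨h.cd, h.cdb, (h.hb.map (A := fun p => n2 G p.1⁻¹) (M := 1) fun p hp =>
    ContinuousLinearMap.opNorm_le_bound _ zero_le_one fun j => ?_).congr
      (fun _ _ _ p hp => (n2_nj (k2 p hp) _).symm) fun _ _ p hp => (n2_nj (k2 p hp) _).symm,
    (h.lp.map (A := fun p => n1 G p.1⁻¹) (M := 1) fun p hp =>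
      ContinuousLinearMap.opNorm_le_bound _ zero_le_one fun j => ?_).congr
      fun _ _ _ p hp => (n1_nj (k2 p hp) _).symm⟩
  · rw [one_mul]; exact n2_le (k1 p hp) j
  · rw [one_mul]; exact n1_le (k1 p hp) j

end plane

end Vale.Agent.P218A2
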